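import Vale.Agent.P359.Mom.Defs

/-!
# P359: the removal maps and the ladders
-/

noncomputable section

open Finset Function

namespace Vale.Agent.P359.Mom

open Upper

variable {N Q : ℕ}

/-- The inner product of states. -/
def dot (f g : Orbs N Q → ℝ) : ℝ := ∑ x, f x * g x

lemma dot_comm (f g : Orbs N Q → ℝ) : dot f g = dot g f := by simp only [dot, mul_comm]

/-- `rsl` as a linear map. -/
def rslL (a : ℕ) : (Orbs (N + 1) Q → ℝ) →ₗ[ℝ] (Orbs N Q → ℝ) where
  toFun := rsl a
  map_add' f g := by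
    funext x; simp only [rsl, Pi.add_apply]; split_ifs <;> ring
  map_smul' c f := by
    funext x; simp only [rsl, Pi.smul_apply, smul_eq_mul, RingHom.id_apply]; split_ifs <;> ring

/-- `rpc` as a linear map. -/
def rpcL (s : ℕ) : (Orbs (N + 2) Q → ℝ) →ₗ[ℝ] (Orbs N Q → ℝ) where
  toFun := rpc s
  map_add' f g := by
    funext x
    have h := fun a : ℕ => (rslL (N := N + 1) (Q := Q) a).map_add f g
    have h' := fun (a : ℕ) (u v : Orbs (N + 1) Q → ℝ) => (rslL (N := N) (Q := Q) a).map_add u v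
    simp only [rslL, LinearMap.coe_mk, AddHom.coe_mk] at h h'
    simp only [rpc, h, h', Pi.add_apply, mul_add, sum_add_distrib]
  map_smul' c f := by
    funext x
    have h := fun a : ℕ => (rslL (N := N + 1) (Q := Q) a).map_smul c f
    have h' := fun (a : ℕ) (u : Orbs (N + 1) Q → ℝ) => (rslL (N := N) (Q := Q) a).map_smul c u
    simp only [rslL, LinearMap.coe_mk, AddHom.coe_mk] at h h'
    simp only [rpc, h, h', Pi.smul_apply, smul_eq_mul, RingHom.id_apply, mul_sum, mul_left_comm c]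

@[simp] lemma rslL_apply (a : ℕ) (f : Orbs (N + 1) Q → ℝ) : rslL a f = rsl a f := rfl

@[simp] lemma rpcL_apply (s : ℕ) (f : Orbs (N + 2) Q → ℝ) : rpcL s f = rpc s f := rfl

/-- `jl` as a linear map. -/
def jlL : (Orbs N Q → ℝ) →ₗ[ℝ] (Orbs N Q → ℝ) where
  toFun := jl
  map_add' f g := by
    funext x
    simp only [jl, Pi.add_apply, ← sum_add_distrib]
    exact sum_congr rfl fun p _ => by split_ifs <;> ring
  map_smul' c f := by
    funext x
    simp only [jl, Pi.smul_apply, smul_eq_mul, RingHom.id_apply, mul_sum]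
    exact sum_congr rfl fun p _ => by split_ifs <;> ring

/-- `jr` as a linear map. -/
def jrL : (Orbs N Q → ℝ) →ₗ[ℝ] (Orbs N Q → ℝ) where
  toFun := jr
  map_add' f g := by
    funext x
    simp only [jr, Pi.add_apply, ← sum_add_distrib]
    exact sum_congr rfl fun p _ => by split_ifs <;> ring
  map_smul' c f := by
    funext x
    simp only [jr, Pi.smul_apply, smul_eq_mul, RingHom.id_apply, mul_sum]
    exact sum_congr rfl fun p _ => by split_ifs <;> ring

/-- `wgt` as a linear map. -/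
def wgtL : (Orbs N Q → ℝ) →ₗ[ℝ] (Orbs N Q → ℝ) where
  toFun := wgt
  map_add' f g := by
    funext x; simp only [wgt, Pi.add_apply, mul_add]
  map_smul' c f := by
    funext x; simp only [wgt, Pi.smul_apply, smul_eq_mul, RingHom.id_apply]; ring

lemma cw_nonneg (Q k : ℕ) : 0 ≤ cw Q k := by unfold cw; positivity

lemma cw_pos (hQ : 1 ≤ Q) {k : ℕ} (hk : k ≤ Q) : 0 < cw Q k :=
  div_pos (Nat.cast_pos.2 (Nat.choose_pos hk)) (pow_pos (Nat.cast_pos.2 hQ) _)

lemma cw_succ (hQ : 1 ≤ Q) (k : ℕ) :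
    ((k : ℝ) + 1) * cw Q (k + 1) = ((Q - k : ℕ) : ℝ) / Q * cw Q k := by
  have h : ((Q.choose (k + 1) : ℝ)) * ((k : ℝ) + 1) = (Q.choose k : ℝ) * ((Q - k : ℕ) : ℝ) := by
    exact_mod_cast Nat.choose_succ_right_eq Q k
  have hQ0 : (Q : ℝ) ≠ 0 := Nat.cast_ne_zero.2 (by omega)
  unfold cw
  rw [pow_succ]
  field_simp
  linear_combination h

lemma rsl_apply {a : ℕ} (ha : a ≤ Q) (f : Orbs (N + 1) Q → ℝ) (x : Orbs N Q) :
    rsl a f x = √(cw Q a) * f (Fin.cons ⟨a, Nat.lt_succ_of_le ha⟩ x) := dif_pos ha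

lemma rsl_big {a : ℕ} (ha : Q < a) (f : Orbs (N + 1) Q → ℝ) : rsl a f = 0 :=
  funext fun _ => dif_neg (not_le.2 ha)

lemma rsl_fin (a : Fin (Q + 1)) (f : Orbs (N + 1) Q → ℝ) (x : Orbs N Q) :
    rsl (a : ℕ) f x = √(cw Q a) * f (Fin.cons a x) := rsl_apply (Nat.lt_succ_iff.1 a.2) f x

lemma sum_cons (F : Orbs (N + 1) Q → ℝ) :
    ∑ y, F y = ∑ a : Fin (Q + 1), ∑ x : Orbs N Q, F (Fin.cons a x) := by
  rw [← Fintype.sum_prod_type']
  exact (Equiv.sum_comp (Fin.consEquiv fun _ => Fin (Q + 1)) F).symm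

/-- Lowering through a removal. -/
lemma rsl_jl (hQ : 1 ≤ Q) (a : ℕ) (f : Orbs (N + 1) Q → ℝ) :
    rsl a (jl f) = ((a : ℝ) + 1) • rsl (a + 1) f + jl (rsl a f) := by
  funext x
  simp only [Pi.add_apply, Pi.smul_apply, smul_eq_mul]
  rcases lt_or_ge Q a with ha | ha
  · rw [rsl_big ha, rsl_big (Nat.lt_succ_of_lt ha), rsl_big ha]
    simp [jl]
  rw [rsl_apply ha, jl, Fin.sum_univ_succ, mul_add]
  congr 1
  · simp only [Fin.cons_zero]
    by_cases h : a < Q
    · rw [dif_pos h, rsl_apply h, Fin.update_cons_zero]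
      have e : √(cw Q a) * √(cw Q (a + 1) / cw Q a) = √(cw Q (a + 1)) := by
        rw [← Real.sqrt_mul (cw_nonneg Q a), mul_div_cancel₀ _ (cw_pos hQ ha).ne']
      rw [← e]
      ring
    · rw [dif_neg h, rsl_big (show Q < a + 1 by omega)]
      simp
  · rw [mul_sum, jl]
    refine sum_congr rfl fun p _ => ?_
    simp only [Fin.cons_succ]
    split_ifs with h
    · rw [← Fin.cons_update, rsl_apply ha]
      ring
    · ring

/-- Raising through a removal. -/
lemma rsl_jr (hQ : 1 ≤ Q) (a : ℕ) (f : Orbs (N + 1) Q → ℝ) :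
    rsl a (jr f) = uO Q a • rsl (a - 1) f + jr (rsl a f) := by
  funext x
  simp only [Pi.add_apply, Pi.smul_apply, smul_eq_mul]
  rcases lt_or_ge Q a with ha | ha
  · rw [rsl_big ha, rsl_big ha, uO, if_pos (by omega), Nat.sub_eq_zero_of_le (by omega)]
    simp [jr]
  rw [rsl_apply ha, jr, Fin.sum_univ_succ, mul_add]
  congr 1
  · simp only [Fin.cons_zero]
    rcases a with _ | b
    · simp [uO]
    · rw [if_pos (by omega), Fin.update_cons_zero, uO, if_pos (by omega),
        show Q + 1 - (b + 1) = Q - b by omega]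
      simp only [Nat.add_sub_cancel]
      rw [rsl_apply (by omega : b ≤ Q)]
      have hb := cw_pos hQ (show b ≤ Q by omega)
      have hsb := Real.mul_self_sqrt hb.le
      have e : ((b + 1 : ℕ) : ℝ) * (√(cw Q (b + 1)) * √(cw Q (b + 1) / cw Q b))
          = ((Q - b : ℕ) : ℝ) / Q * √(cw Q b) := by
        rw [Real.sqrt_div (cw_nonneg Q _), mul_div_assoc', Real.mul_self_sqrt (cw_nonneg Q _),
          mul_div_assoc', Nat.cast_succ, cw_succ hQ, div_eq_iff (Real.sqrt_ne_zero'.2 hb)]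
        rw [mul_assoc _ (√(cw Q b)), hsb]
      linear_combination f (Fin.cons ⟨b, by omega⟩ x) * e
  · rw [mul_sum, jr]
    refine sum_congr rfl fun p _ => ?_
    simp only [Fin.cons_succ]
    split_ifs with h
    · rw [← Fin.cons_update, rsl_apply ha]
      ring
    · ring

lemma rsl_wgt (a : ℕ) (f : Orbs (N + 1) Q → ℝ) :
    rsl a (wgt f) = (a : ℝ) • rsl a f + wgt (rsl a f) := by
  funext x
  simp only [Pi.add_apply, Pi.smul_apply, smul_eq_mul, wgt]
  rcases lt_or_ge Q a with ha | ha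
  · simp [rsl_big ha]
  rw [rsl_apply ha, rsl_apply ha, wgt, Fin.sum_univ_succ]
  simp only [Fin.cons_zero, Fin.cons_succ]
  ring

/-- `jr` is the transpose of `jl`. -/
lemma dot_jl (f g : Orbs N Q → ℝ) : dot (jl f) g = dot f (jr g) := by
  simp only [dot, jl, jr, sum_mul, mul_sum]
  rw [sum_comm]
  conv_rhs => rw [sum_comm]
  refine sum_congr rfl fun p _ => ?_
  refine (sum_subset (filter_subset (fun x : Orbs N Q => (x p : ℕ) < Q) univ) fun x _ hx => ?_).symm.trans
    (Eq.trans ?_ (sum_subset (filter_subset (fun x : Orbs N Q => 1 ≤ (x p : ℕ)) univ) fun x _ hx => ?_))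
  · rw [mem_filter, not_and] at hx
    rw [dif_neg (hx (mem_univ _))]
    simp
  rotate_left
  · rw [mem_filter, not_and] at hx
    rw [if_neg (hx (mem_univ _))]
    simp
  refine sum_bij'
    (fun x hx => update x p ⟨(x p : ℕ) + 1, Nat.succ_lt_succ (mem_filter.1 hx).2⟩)
    (fun x _ => update x p ⟨(x p : ℕ) - 1, lt_of_le_of_lt (Nat.sub_le _ _) (x p).2⟩) ?_ ?_ ?_ ?_ ?_
  · intro x hx
    simp
  · intro x hx
    have h1 := (mem_filter.1 hx).2
    have := (x p).2
    simp
    omega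
  · intro x hx
    funext q
    by_cases hq : q = p
    · subst hq; apply Fin.ext; simp
    · simp [update_of_ne hq]
  · intro x hx
    have h1 := (mem_filter.1 hx).2
    funext q
    by_cases hq : q = p
    · subst hq; apply Fin.ext; simp; omega
    · simp [update_of_ne hq]
  · intro x hx
    rw [dif_pos (mem_filter.1 hx).2, if_pos (by simp)]
    simp only [update_self, Nat.add_sub_cancel, Nat.cast_succ, Fin.eta, update_idem,
      update_eq_self]
    ring

lemma dot_wgt (f g : Orbs N Q → ℝ) : dot (wgt f) g = dot f (wgt g) := by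
  simp only [dot, wgt]
  exact sum_congr rfl fun x _ => by ring

lemma rpc_eq_zero_of_bad (s : ℕ) (h : s = 0 ∨ 2 * Q ≤ s) (f : Orbs (N + 2) Q → ℝ) :
    rpc s f = 0 := by
  funext x
  refine sum_eq_zero fun k hk => ?_
  rw [mem_range] at hk
  by_cases h1 : Q < k
  · rw [rsl_big h1]; simp [rsl]
  by_cases h2 : Q < s - k
  · rw [rsl_big h2]; simp
  rw [show s - k = k by omega, sub_self, zero_mul]

end Vale.Agent.P359.Mom
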