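import Vale.Agent.P359.Mom.Model.Basic

/-!
# P359: pair removal, fermionic structure and the pair projection in moments language
-/

noncomputable section

open Finset Function Equiv

namespace Vale.Agent.P359.Mom

open Upper Kernel

variable {N Q : ℕ}

lemma rpc_fun (s : ℕ) (f : Orbs (N + 2) Q → ℝ) :
    rpc s f = ∑ k ∈ range (s + 1), (((s - k : ℕ) : ℝ) - k) • rsl (s - k) (rsl k f) := by
  funext x; simp [rpc, Finset.sum_apply]

/-- `rpc` through the orbital pairs. -/
lemma rpc_eq_sum (s : ℕ) (f : Orbs (N + 2) Q → ℝ) (x : Orbs N Q) :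
    rpc s f x = ∑ k : Fin (Q + 1), ∑ l : Fin (Q + 1),
      if (k : ℕ) + l = s then ((l : ℝ) - k) * (√(cw Q k) * √(cw Q l) *
        f (Fin.cons k (Fin.cons l x))) else 0 := by
  have hin : ∀ k : Fin (Q + 1), ∀ l : Fin (Q + 1),
      ((l : ℝ) - k) * (√(cw Q k) * √(cw Q l) * f (Fin.cons k (Fin.cons l x)))
        = (((l : ℕ) : ℝ) - k) * rsl (l : ℕ) (rsl (k : ℕ) f) x := by
    intro k l
    rw [rsl_fin, rsl_fin]
    ring
  simp only [hin]
  rw [Fin.sum_univ_eq_sum_range (fun k => ∑ l : Fin (Q + 1),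
    if k + (l : ℕ) = s then ((l : ℝ) - k) * rsl (l : ℕ) (rsl k f) x else 0) (Q + 1)]
  have hrow : ∀ k, ∑ l : Fin (Q + 1),
      (if k + (l : ℕ) = s then ((l : ℝ) - k) * rsl (l : ℕ) (rsl k f) x else 0)
        = if k ≤ s then (((s - k : ℕ) : ℝ) - k) * rsl (s - k) (rsl k f) x else 0 := by
    intro k
    rw [Fin.sum_univ_eq_sum_range
      (fun l => if k + l = s then ((l : ℝ) - k) * rsl l (rsl k f) x else 0) (Q + 1)]
    by_cases hk : k ≤ s
    · rw [if_pos hk]
      by_cases hl : s - k ≤ Q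
      · rw [Finset.sum_eq_single_of_mem (s - k) (mem_range.2 (by omega))
          fun l _ hl' => if_neg (by omega), if_pos (by omega)]
      · rw [rsl_big (show Q < s - k by omega),
          Finset.sum_eq_zero fun l hl' => if_neg fun _ => hl (by rw [mem_range] at hl'; omega)]
        simp
    · rw [if_neg hk, Finset.sum_eq_zero fun l _ => if_neg (by omega)]
  simp only [hrow]
  set F := fun k => if k ≤ s then (((s - k : ℕ) : ℝ) - k) * rsl (s - k) (rsl k f) x else 0 with hF
  have hlhs : rpc s f x = ∑ k ∈ range (s + 1), F k :=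
    sum_congr rfl fun k hk => by rw [hF, mem_range] at *; simp [show k ≤ s by omega]
  rw [hlhs]
  rcases le_total (s + 1) (Q + 1) with h | h
  · refine sum_subset (range_mono h) fun k _ hk => ?_
    rw [mem_range] at hk
    simp [hF, show ¬ k ≤ s by omega]
  · refine (sum_subset (range_mono h) fun k _ hk => ?_).symm
    rw [mem_range] at hk
    simp [hF, rsl, show ¬ k ≤ Q by omega]

lemma rpc_jl (hQ : 1 ≤ Q) (s : ℕ) (f : Orbs (N + 2) Q → ℝ) :
    rpc s (jl f) = (s : ℝ) • rpc (s + 1) f + jl (rpc s f) := by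
  have hjl : jl (rpc s f) = ∑ k ∈ range (s + 1),
      (((s - k : ℕ) : ℝ) - k) • jl (rsl (s - k) (rsl k f)) := by
    show jlL (rpc s f) = _
    rw [rpc_fun, map_sum]
    exact sum_congr rfl fun k _ => map_smul jlL _ _
  rw [hjl, rpc_fun s (jl f), rpc_fun (s + 1) f, smul_sum]
  have e : ∀ k, rsl (s - k) (rsl k (jl f)) = ((k : ℝ) + 1) • rsl (s - k) (rsl (k + 1) f)
      + (((s - k : ℕ) : ℝ) + 1) • rsl (s - k + 1) (rsl k f) + jl (rsl (s - k) (rsl k f)) := by
    intro k
    rw [rsl_jl hQ, show rsl (s - k) (((k : ℝ) + 1) • rsl (k + 1) f + jl (rsl k f))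
      = ((k : ℝ) + 1) • rsl (s - k) (rsl (k + 1) f) + rsl (s - k) (jl (rsl k f)) by
        rw [← rslL_apply (s - k), map_add, map_smul]; rfl, rsl_jl hQ]
    abel
  funext x
  simp only [e, Finset.sum_apply, Pi.add_apply, Pi.smul_apply, smul_eq_mul, mul_add,
    sum_add_distrib]
  congr 1
  set T := fun k l : ℕ => rsl l (rsl k f) x with hT
  have h1 : ∑ k ∈ range (s + 1), (((s - k : ℕ) : ℝ) - k) * (((k : ℝ) + 1) * T (k + 1) (s - k))
      = ∑ k ∈ range (s + 2),
          (((s + 1 - k : ℕ) : ℝ) - k + 1) * ((k : ℝ) * T k (s + 1 - k)) := by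
    rw [sum_range_succ' _ (s + 1)]
    simp only [Nat.cast_zero, zero_mul, mul_zero, add_zero, Nat.succ_sub_succ, Nat.cast_succ]
    exact sum_congr rfl fun k _ => by ring
  have h2 : ∑ k ∈ range (s + 1), (((s - k : ℕ) : ℝ) - k) * ((((s - k : ℕ) : ℝ) + 1) * T k (s - k + 1))
      = ∑ k ∈ range (s + 2),
          (((s + 1 - k : ℕ) : ℝ) - k - 1) * (((s + 1 - k : ℕ) : ℝ) * T k (s + 1 - k)) := by
    rw [sum_range_succ _ (s + 1)]
    simp only [Nat.sub_self, Nat.cast_zero, zero_mul, mul_zero, add_zero]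
    refine sum_congr rfl fun k hk => ?_
    rw [show s + 1 - k = s - k + 1 by rw [mem_range] at hk; omega]
    push_cast
    ring
  rw [h1, h2, ← sum_add_distrib]
  refine sum_congr rfl fun k hk => ?_
  simp only [hT]
  have : ((s + 1 - k : ℕ) : ℝ) = (s : ℝ) + 1 - k := by
    rw [mem_range] at hk
    rw [Nat.cast_sub (by omega)]
    push_cast
    ring
  rw [this]
  ring

lemma rpc_jr (hQ : 1 ≤ Q) (s : ℕ) (f : Orbs (N + 2) Q → ℝ) :
    rpc s (jr f) = uR Q s • rpc (s - 1) f + jr (rpc s f) := by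
  have hjr : jr (rpc s f) = ∑ k ∈ range (s + 1),
      (((s - k : ℕ) : ℝ) - k) • jr (rsl (s - k) (rsl k f)) := by
    show jrL (rpc s f) = _
    rw [rpc_fun, map_sum]
    exact sum_congr rfl fun k _ => map_smul jrL _ _
  rw [hjr, rpc_fun s (jr f)]
  have e : ∀ k, rsl (s - k) (rsl k (jr f)) = uO Q k • rsl (s - k) (rsl (k - 1) f)
      + uO Q (s - k) • rsl (s - k - 1) (rsl k f) + jr (rsl (s - k) (rsl k f)) := by
    intro k
    rw [rsl_jr hQ, show rsl (s - k) (uO Q k • rsl (k - 1) f + jr (rsl k f))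
      = uO Q k • rsl (s - k) (rsl (k - 1) f) + rsl (s - k) (jr (rsl k f)) by
        rw [← rslL_apply (s - k), map_add, map_smul]; rfl, rsl_jr hQ]
    abel
  funext x
  simp only [e, Finset.sum_apply, Pi.add_apply, Pi.smul_apply, smul_eq_mul, mul_add,
    sum_add_distrib]
  congr 1
  rcases s with _ | r
  · simp [uR, uO, rpc]
  rw [show r + 1 - 1 = r from rfl]
  set T := fun k l : ℕ => rsl l (rsl k f) x with hT
  have h1 : ∑ k ∈ range (r + 1 + 1), (((r + 1 - k : ℕ) : ℝ) - k) * (uO Q k * T (k - 1) (r + 1 - k))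
      = ∑ k ∈ range (r + 1), (((r - k : ℕ) : ℝ) - k - 1) * (((Q - k : ℕ) : ℝ) / Q * T k (r - k)) := by
    rw [sum_range_succ' _ (r + 1)]
    simp only [uO, show ¬ (1 : ℕ) ≤ 0 by omega, if_false, zero_mul, mul_zero, add_zero,
      Nat.succ_sub_succ, Nat.sub_zero, Nat.le_add_left, if_true, Nat.cast_succ,
      sub_sub]
  have h2 : ∑ k ∈ range (r + 1 + 1),
      (((r + 1 - k : ℕ) : ℝ) - k) * (uO Q (r + 1 - k) * T k (r + 1 - k - 1))
      = ∑ k ∈ range (r + 1),
          (((r - k : ℕ) : ℝ) - k + 1) * (((Q - (r - k) : ℕ) : ℝ) / Q * T k (r - k)) := by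
    rw [sum_range_succ _ (r + 1)]
    simp only [uO, Nat.sub_self, show ¬ (1 : ℕ) ≤ 0 by omega, if_false, zero_mul, mul_zero, add_zero]
    refine sum_congr rfl fun k hk => ?_
    rw [mem_range] at hk
    rw [show r + 1 - k = r - k + 1 by omega, if_pos (by omega), Nat.add_sub_cancel,
      Nat.succ_sub_succ]
    push_cast
    ring
  rw [h1, h2, ← sum_add_distrib, rpc, mul_sum]
  refine sum_congr rfl fun k hk => ?_
  simp only [hT]
  rw [mem_range] at hk
  by_cases hk2 : k ≤ Q ∧ r - k ≤ Q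
  · obtain ⟨hk2, hl2⟩ := hk2
    have hQ0 : (Q : ℝ) ≠ 0 := Nat.cast_ne_zero.2 (by omega)
    rw [Nat.cast_sub hk2, Nat.cast_sub hl2, Nat.cast_sub (show k ≤ r by omega), uR]
    split_ifs with h2r
    · by_cases hr : r + 1 ≤ 2 * Q
      · rw [Nat.cast_sub hr]
        push_cast
        field_simp
        ring
      · have hkQ : k = Q := by omega
        have hrQ : r = 2 * Q := by omega
        subst hkQ hrQ
        push_cast
        ring
    · have h0 : r = 0 := by omega
      have h0' : k = 0 := by omega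
      subst h0 h0'
      push_cast
      field_simp
      ring
  · have h0 : rsl (r - k) (rsl k f) x = 0 := by
      rcases not_and_or.1 hk2 with h | h
      · rw [rsl_big (show Q < k by omega)]; simp [rsl]
      · rw [rsl_big (show Q < r - k by omega)]; rfl
    rw [h0]
    ring

lemma rpc_wgt (s : ℕ) (f : Orbs (N + 2) Q → ℝ) :
    rpc s (wgt f) = (s : ℝ) • rpc s f + wgt (rpc s f) := by
  funext x
  simp only [Pi.add_apply, Pi.smul_apply, smul_eq_mul, wgt, rpc, mul_sum, ← sum_add_distrib]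
  refine sum_congr rfl fun k hk => ?_
  rw [rsl_wgt, ← rslL_apply (s - k), map_add, map_smul, rslL_apply, rslL_apply, rsl_wgt]
  simp only [Pi.add_apply, Pi.smul_apply, smul_eq_mul, wgt]
  have : ((s - k : ℕ) : ℝ) = (s : ℝ) - k := Nat.cast_sub (by rw [mem_range] at hk; omega)
  rw [this]
  ring

lemma rsl_fermionic {a : ℕ} {f : Orbs (N + 1) Q → ℝ} (hf : IsFermionic f) :
    IsFermionic (rsl a f) := by
  intro e x
  simp only [rsl]
  split_ifs with ha
  · have he : Fin.cons (⟨a, Nat.lt_succ_of_le ha⟩ : Fin (Q + 1)) (x ∘ e)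
        = Fin.cons (⟨a, Nat.lt_succ_of_le ha⟩ : Fin (Q + 1)) x ∘ Perm.decomposeFin.symm (0, e) := by
      funext p
      induction p using Fin.cases with
      | zero => simp
      | succ q => simp
    rw [he, hf]
    simp [Equiv.Perm.decomposeFin.symm_sign]
    ring
  · simp

lemma rpc_fermionic {s : ℕ} {f : Orbs (N + 2) Q → ℝ} (hf : IsFermionic f) :
    IsFermionic (rpc s f) := by
  intro e x
  simp only [rpc, mul_sum, rsl_fermionic (rsl_fermionic hf) e x]
  exact sum_congr rfl fun k _ => by ring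

lemma pairNorm_eq (hQ : 1 ≤ Q) (s : ℕ) : pairNorm Q s = (Q : ℝ) ^ s * pn Q s := by
  unfold pairNorm pn pairVec
  rw [Fin.sum_univ_eq_sum_range (fun k => ∑ l : Fin (Q + 1),
    (if k + (l : ℕ) = s then √((Q.choose k : ℝ) * Q.choose l) * ((l : ℝ) - k) else 0) ^ 2)]
  have hrow : ∀ k, ∑ l : Fin (Q + 1),
      (if k + (l : ℕ) = s then √((Q.choose k : ℝ) * Q.choose l) * ((l : ℝ) - k) else 0) ^ 2
      = if k ≤ s then (Q : ℝ) ^ s * ((((s - k : ℕ) : ℝ) - k) ^ 2 * cw Q k * cw Q (s - k)) else 0 := by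
    intro k
    rw [Fin.sum_univ_eq_sum_range
      (fun l => (if k + l = s then √((Q.choose k : ℝ) * Q.choose l) * ((l : ℝ) - k) else 0) ^ 2)]
    by_cases hk : k ≤ s
    · rw [if_pos hk]
      have hQ0 : (Q : ℝ) ≠ 0 := Nat.cast_ne_zero.2 (by omega)
      by_cases hl : s - k ≤ Q
      · rw [Finset.sum_eq_single_of_mem (s - k) (mem_range.2 (by omega))
          fun l _ hl' => by rw [if_neg (by omega)]; ring, if_pos (by omega), mul_pow,
          Real.sq_sqrt (by positivity), cw, cw]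
        obtain ⟨d, rfl⟩ : ∃ d, s = k + d := ⟨s - k, by omega⟩
        rw [Nat.add_sub_cancel_left, pow_add]
        field_simp
      · rw [Finset.sum_eq_zero fun l hl' => by rw [if_neg (by rw [mem_range] at hl'; omega)]; ring]
        simp [cw, Nat.choose_eq_zero_of_lt (show Q < s - k by omega)]
    · rw [if_neg hk, Finset.sum_eq_zero fun l _ => by rw [if_neg (by omega)]; ring]
  simp only [hrow, mul_sum]
  rcases le_total (s + 1) (Q + 1) with h | h
  · rw [← sum_subset (range_mono h) fun k _ hk => by rw [mem_range] at hk; rw [if_neg (by omega)]]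
    exact sum_congr rfl fun k hk => by rw [mem_range] at hk; rw [if_pos (by omega)]
  · rw [← sum_subset (range_mono h) fun k _ hk => by
      rw [mem_range] at hk
      simp [cw, Nat.choose_eq_zero_of_lt (show Q < k by omega)]]
    exact sum_congr rfl fun k hk => by rw [mem_range] at hk; rw [if_pos (by omega)]

lemma pairVec_eq (hQ : 1 ≤ Q) (s : ℕ) (k l : Fin (Q + 1)) :
    pairVec Q s k l = if (k : ℕ) + l = s then
      √((Q : ℝ) ^ s) * (√(cw Q k) * √(cw Q l) * ((l : ℝ) - k)) else 0 := by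
  unfold pairVec
  split_ifs with h
  · have hQ0 : (Q : ℝ) ≠ 0 := Nat.cast_ne_zero.2 (by omega)
    rw [← h, ← Real.sqrt_mul (cw_nonneg Q _), ← mul_assoc (√_),
      ← Real.sqrt_mul (by positivity : (0:ℝ) ≤ (Q : ℝ) ^ ((k : ℕ) + l)), cw, cw, pow_add]
    congr 2
    field_simp
  · rfl

lemma update_zero_one {n : ℕ} (a b k l : Fin (Q + 1)) (x : Orbs n Q) :
    update (update (Fin.cons a (Fin.cons b x) : Orbs (n + 2) Q) 0 k) 1 l
      = Fin.cons k (Fin.cons l x) := by
  rw [Fin.update_cons_zero, show (1 : Fin (n + 2)) = Fin.succ 0 from rfl, ← Fin.cons_update,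
    Fin.update_cons_zero]

lemma amp_zero_one (hQ : 1 ≤ Q) (s : ℕ) (f : Orbs (N + 2) Q → ℝ) (a b : Fin (Q + 1))
    (x : Orbs N Q) :
    amp f 0 1 s (Fin.cons a (Fin.cons b x)) = √((Q : ℝ) ^ s) * rpc s f x := by
  rw [rpc_eq_sum, mul_sum, amp]
  refine sum_congr rfl fun k _ => ?_
  rw [mul_sum]
  refine sum_congr rfl fun l _ => ?_
  rw [update_zero_one, pairVec_eq hQ]
  split_ifs <;> ring

/-- The first pair projection in raw coordinates. -/
lemma pairProj_zero_one (hQ : 1 ≤ Q) (f : Orbs (N + 2) Q → ℝ) (a b : Fin (Q + 1))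
    (x : Orbs N Q) :
    pairProj 0 1 f (Fin.cons a (Fin.cons b x))
      = √(cw Q a) * √(cw Q b) * ((b : ℝ) - a) * rpc ((a : ℕ) + b) f x / pn Q ((a : ℕ) + b) := by
  have hs : (a : ℕ) + b ∈ range (2 * Q + 1) := by
    have := a.2; have := b.2; rw [mem_range]; omega
  rw [pairProj, sum_eq_single_of_mem _ hs fun t _ ht => ?_, amp_zero_one hQ, Fin.cons_zero,
    show (1 : Fin (N + 2)) = Fin.succ 0 from rfl, Fin.cons_succ, Fin.cons_zero, pairVec_eq hQ,
    if_pos rfl, pairNorm_eq hQ]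
  · have hp : 0 < (Q : ℝ) ^ ((a : ℕ) + b) := pow_pos (Nat.cast_pos.2 hQ) _
    calc √((Q : ℝ) ^ ((a : ℕ) + b)) * rpc ((a : ℕ) + b) f x *
          (√((Q : ℝ) ^ ((a : ℕ) + b)) * (√(cw Q a) * √(cw Q b) * ((b : ℝ) - a))) /
          ((Q : ℝ) ^ ((a : ℕ) + b) * pn Q ((a : ℕ) + b))
        = (√((Q : ℝ) ^ ((a : ℕ) + b)) * √((Q : ℝ) ^ ((a : ℕ) + b))) *
          (√(cw Q a) * √(cw Q b) * ((b : ℝ) - a) * rpc ((a : ℕ) + b) f x) /
          ((Q : ℝ) ^ ((a : ℕ) + b) * pn Q ((a : ℕ) + b)) := by ring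
      _ = _ := by rw [Real.mul_self_sqrt hp.le, mul_div_mul_left _ _ hp.ne']
  · rw [show (1 : Fin (N + 2)) = Fin.succ 0 from rfl, Fin.cons_succ, Fin.cons_zero, Fin.cons_zero,
      pairVec_eq hQ, if_neg fun h => ht h.symm]
    ring

/-- The first pair projection in moments. -/
lemma dot_pairProj_zero_one (hQ : 1 ≤ Q) (f g : Orbs (N + 2) Q → ℝ) :
    dot f (pairProj 0 1 g) = ∑ s ∈ I0 Q, dot (rpc s f) (rpc s g) / pn Q s := by
  calc dot f (pairProj 0 1 g)
      = ∑ a : Fin (Q + 1), ∑ b : Fin (Q + 1), ∑ x : Orbs N Q, ∑ s ∈ range (2 * Q + 1),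
          if (a : ℕ) + b = s then ((b : ℝ) - a) * (√(cw Q a) * √(cw Q b) *
            f (Fin.cons a (Fin.cons b x))) * (rpc s g x / pn Q s) else 0 := by
        rw [dot, sum_cons]
        refine sum_congr rfl fun a _ => ?_
        rw [sum_cons]
        refine sum_congr rfl fun b _ => sum_congr rfl fun x _ => ?_
        rw [pairProj_zero_one hQ, sum_eq_single_of_mem ((a : ℕ) + b)
          (by have := a.2; have := b.2; rw [mem_range]; omega) fun t _ ht => if_neg (Ne.symm ht),
          if_pos rfl]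
        ring
    _ = ∑ s ∈ range (2 * Q + 1), dot (rpc s f) (rpc s g) / pn Q s := by
        rw [sum_congr rfl fun a (_ : a ∈ univ) => sum_congr rfl fun b (_ : b ∈ univ) =>
          Finset.sum_comm]
        rw [sum_congr rfl fun a (_ : a ∈ univ) => Finset.sum_comm, Finset.sum_comm]
        refine sum_congr rfl fun s _ => ?_
        rw [dot, sum_div, sum_congr rfl fun a (_ : a ∈ univ) => Finset.sum_comm, Finset.sum_comm]
        refine sum_congr rfl fun x _ => ?_
        rw [rpc_eq_sum s f, sum_mul, sum_div]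
        refine sum_congr rfl fun a _ => ?_
        rw [sum_mul, sum_div]
        refine sum_congr rfl fun b _ => ?_
        split_ifs <;> ring
    _ = _ := by
        rw [sum_range_succ, rpc_eq_zero_of_bad (2 * Q) (Or.inr le_rfl)]
        simp [dot, I0]

lemma pairProj_comp {n : ℕ} {f : Orbs n Q → ℝ} (hf : IsFermionic f) (e : Perm (Fin n))
    (i j : Fin n) (y : Orbs n Q) :
    pairProj i j f (y ∘ e) = ((e.sign : ℤ) : ℝ) * pairProj (e i) (e j) f y := by
  rw [pairProj, pairProj, mul_sum]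
  refine sum_congr rfl fun s _ => ?_
  have ha : amp f i j s (y ∘ e) = ((e.sign : ℤ) : ℝ) * amp f (e i) (e j) s y := by
    unfold amp
    rw [mul_sum]
    refine sum_congr rfl fun k _ => ?_
    rw [mul_sum]
    refine sum_congr rfl fun l _ => ?_
    rw [show update (update (y ∘ e) i k) j l = update (update y (e i) k) (e j) l ∘ e by
      rw [update_comp_eq_of_injective _ e.injective, update_comp_eq_of_injective _ e.injective], hf]
    ring
  rw [ha]
  simp only [comp_apply]
  ring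

lemma sign_sq {n : ℕ} (e : Perm (Fin n)) :
    ((e.sign : ℤ) : ℝ) * ((e.sign : ℤ) : ℝ) = 1 := by
  rcases Int.units_eq_one_or e.sign with he | he <;> simp [he]

lemma dot_comp {n : ℕ} (e : Perm (Fin n)) (f g : Orbs n Q → ℝ) :
    ∑ y : Orbs n Q, f (y ∘ e) * g (y ∘ e) = dot f g :=
  Equiv.sum_comp (e.symm.arrowCongr (Equiv.refl (Fin (Q + 1)))) fun y => f y * g y

/-- A permutation extending an injective tuple. -/
lemma exists_perm {k n : ℕ} (f g : Fin k → Fin n) (hf : Injective f) (hg : Injective g) :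
    ∃ e : Perm (Fin n), ∀ i, e (g i) = f i := by
  classical
  refine ⟨((Equiv.ofInjective g hg).symm.trans (Equiv.ofInjective f hf)).extendSubtype, fun i => ?_⟩
  rw [Equiv.extendSubtype_apply_of_mem _ _ ⟨i, rfl⟩]
  simp

lemma dot_pairProj_perm {n : ℕ} {f g : Orbs (n + 2) Q → ℝ} (hf : IsFermionic f)
    (hg : IsFermionic g) {i j : Fin (n + 2)} (hij : i ≠ j) :
    dot f (pairProj i j g) = dot f (pairProj 0 1 g) := by
  obtain ⟨e, he⟩ := exists_perm ![i, j] ![(0 : Fin (n + 2)), 1]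
    (by intro a b; fin_cases a <;> fin_cases b <;> simp [hij, hij.symm])
    (by intro a b; fin_cases a <;> fin_cases b <;> simp)
  have h0 : e 0 = i := he 0
  have h1 : e 1 = j := he 1
  rw [← dot_comp e f (pairProj 0 1 g), dot]
  refine sum_congr rfl fun y _ => ?_
  rw [hf, pairProj_comp hg, h0, h1]
  linear_combination -(f y * pairProj i j g y) * sign_sq e

/-- The polarised energy of fermionic states in moments. -/
theorem form_eq_pair (hQ : 1 ≤ Q) {f g : Orbs (N + 2) Q → ℝ} (hf : IsFermionic f)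
    (hg : IsFermionic g) :
    form f g = ((N + 2).choose 2 : ℝ) * ∑ s ∈ I0 Q, dot (rpc s f) (rpc s g) / pn Q s := by
  have h2 : 2 * form f g = ∑ i : Fin (N + 2), ∑ j : Fin (N + 2), dot f (pairProj i j g) := by
    calc 2 * form f g = ∑ y, f y * (2 * ham g y) := by
          rw [← sum_mul_ham, mul_sum]
          exact sum_congr rfl fun y _ => by ring
      _ = _ := by
          simp only [two_mul_ham, mul_sum, dot]
          rw [Finset.sum_comm]
          exact sum_congr rfl fun i _ => Finset.sum_comm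
  have hrow : ∀ i : Fin (N + 2), ∑ j : Fin (N + 2), dot f (pairProj i j g)
      = ((N : ℝ) + 1) * dot f (pairProj 0 1 g) := fun i => by
    rw [← Finset.add_sum_erase _ _ (mem_univ i)]
    rw [sum_congr rfl fun j hj => dot_pairProj_perm hf hg (Finset.ne_of_mem_erase hj).symm]
    rw [sum_const, card_erase_of_mem (mem_univ i), Finset.card_univ, Fintype.card_fin]
    simp [dot, pairProj_self]
  rw [← dot_pairProj_zero_one hQ, Nat.cast_choose_two]
  simp only [hrow, sum_const, Finset.card_univ, Fintype.card_fin, nsmul_eq_mul] at h2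
  push_cast at h2 ⊢
  linear_combination h2 / 2

end Vale.Agent.P359.Mom
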